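import Vale.Agent.H24.LipFree.CoarselyProper
import Vale.Agent.H24.LipFree.Transfer
import Vale.Agent.H24.LipFree.Retract

/-!
# P090: the results on the bounded approximation property of Lipschitz-free spaces over
uniformly discrete metric spaces in one statement, with two corollaries in literal form

`LipFree M o` is the Lipschitz-free space of the pointed metric space `(M, o)` and
`HasBAP lam X` the `lam`-bounded approximation property; see `Vale.Agent.H24.LipFree.Defs`.

The statement is the conjunction of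
1. the BAP for coarsely proper uniformly discrete spaces, with an explicit constant;
2. the invariance of the BAP of `F(M)` under quasi-isometries of uniformly discrete spaces;
3. the BAP for uniformly discrete coarse Lipschitz retracts of normed spaces with the BAP;
4. the BAP for nets in normed spaces with the BAP (a special case of 3, in the usual language);
5. the first result without constants: `F(M)` has the BAP for every coarsely proper uniformly
   discrete space `M` (a consequence of 1);
6. the fourth result without constants: `F(N)` has the BAP for every net `N` in a normed space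
   with the BAP (a consequence of 4).
-/

namespace Vale.Agent.Results.P090.A00_CombinedAndLiteral

open Vale.Agent.H24

universe u v

/-- Nets in normed spaces with the BAP (conjunct 4), deduced from the retract theorem. -/
theorem nets (X : Type u) [NormedAddCommGroup X] [NormedSpace ℝ X] (lam : ℝ)
    (hX : HasBAP lam X) (N : Set X) (a b : ℝ) (ha : 0 < a)
    (hsep : ∀ x ∈ N, ∀ y ∈ N, x ≠ y → a ≤ dist x y)
    (hdense : ∀ u : X, ∃ x ∈ N, dist u x ≤ b) (o : N) :
    HasBAP (1 + 2 * lam + (4 * b + 2 + 4 * lam * b) / a) (LipFree N o) := by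
  have hb : 0 ≤ b := by
    obtain ⟨x, -, hx⟩ := hdense 0
    exact dist_nonneg.trans hx
  choose p hpN hp using hdense
  have hsep' : ∀ x y : N, x ≠ y → a ≤ dist x y := fun x y hxy =>
    hsep x.1 x.2 y.1 y.2 (fun h => hxy (Subtype.ext h))
  have hf : ∀ x y : N, dist (x : X) (y : X) ≤ 1 * dist x y + 2 * b := by
    intro x y
    rw [one_mul, Subtype.dist_eq]
    linarith
  have hg : ∀ u v : X, dist (⟨p u, hpN u⟩ : N) ⟨p v, hpN v⟩ ≤ 1 * dist u v + 2 * b := by
    intro u v
    rw [one_mul, Subtype.dist_eq]
    have h1 : dist (p u) (p v) ≤ dist (p u) u + dist u v + dist v (p v) := dist_triangle4 _ _ _ _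
    have h2 : dist (p u) u ≤ b := by
      rw [dist_comm]
      exact hp u
    linarith [hp v]
  have hgf : ∀ x : N, dist (⟨p (x : X), hpN (x : X)⟩ : N) x ≤ 2 * b := by
    intro x
    rw [Subtype.dist_eq]
    have h2 : dist (p (x : X)) (x : X) ≤ b := by
      rw [dist_comm]
      exact hp (x : X)
    linarith
  have key := hasBAP_of_coarse_retract N o X a 1 (2 * b) lam ha zero_le_one (by linarith) hsep'
    hX (fun x => (x : X)) (fun u => ⟨p u, hpN u⟩) hf hg hgf
  have e : 1 + 2 * lam * (1 : ℝ) ^ 2 + (2 * (2 * b) + 2 * 1 + 2 * lam * 1 * (2 * b)) / a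
      = 1 + 2 * lam + (4 * b + 2 + 4 * lam * b) / a := by ring
  rw [e] at key
  exact key

/-- Results on the bounded approximation property (BAP) of the Lipschitz-free space `F(M)`
of a uniformly discrete metric space `M` (distinct points at distance at least `θ > 0`).

1. If every ball centred at `o` is covered by finitely many closed balls of radius `D`, then
   `F(M)` has the `lam`-BAP for every `lam > 1 + 2 * D / θ`.
2. If `M` and `M'` are uniformly discrete and quasi-isometric, then `F(M)` has the BAP if and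
   only if `F(M')` has it.
3. If `X` is a real normed space with the `lam`-BAP and `f : M → X`, `g : X → M` are coarsely
   Lipschitz with `g ∘ f` at distance at most `B` from the identity, then `F(M)` has the BAP
   with constant `1 + 2 * lam * A ^ 2 + (2 * B + 2 * A + 2 * lam * A * B) / θ`.
4. If `N` is a net in a real normed space `X` with the `lam`-BAP (distinct points at distance
   at least `a > 0`, every point of `X` within `b` of `N`), then `F(N)` has the BAP with
   constant `1 + 2 * lam + (4 * b + 2 + 4 * lam * b) / a`.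
5. If `M` is uniformly discrete (some `θ > 0`) and for some `D` every ball centred at `o` is
   covered by finitely many closed balls of radius `D`, then `F(M)` has the BAP (for some
   constant).
6. If `X` is a real normed space with the BAP and `N` is a net in `X` (for some `a > 0` and
   some `b`), then `F(N)` has the BAP (for some constant). -/
theorem result :
    (∀ (M : Type u) [MetricSpace M] (o : M) (θ D : ℝ), 0 < θ → 0 ≤ D →
      (∀ x y : M, x ≠ y → θ ≤ dist x y) →
      (∀ R : ℝ, ∃ S : Finset M, ∀ x : M, dist x o ≤ R → ∃ s ∈ S, dist x s ≤ D) →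
      ∀ lam : ℝ, 1 + 2 * D / θ < lam → HasBAP lam (LipFree M o)) ∧
    (∀ (M : Type u) [MetricSpace M] (M' : Type v) [MetricSpace M'] (o : M) (o' : M')
      (θ A B : ℝ), 0 < θ →
      (∀ x y : M, x ≠ y → θ ≤ dist x y) → (∀ x y : M', x ≠ y → θ ≤ dist x y) →
      ∀ (f : M → M') (g : M' → M),
        (∀ x y, dist (f x) (f y) ≤ A * dist x y + B) →
        (∀ x y, dist (g x) (g y) ≤ A * dist x y + B) →
        (∀ x, dist (g (f x)) x ≤ B) → (∀ y, dist (f (g y)) y ≤ B) →
        ((∃ lam : ℝ, HasBAP lam (LipFree M o)) ↔ (∃ lam : ℝ, HasBAP lam (LipFree M' o')))) ∧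
    (∀ (M : Type u) [MetricSpace M] (o : M) (X : Type v) [NormedAddCommGroup X]
      [NormedSpace ℝ X] (θ A B lam : ℝ), 0 < θ → 0 ≤ A → 0 ≤ B →
      (∀ x y : M, x ≠ y → θ ≤ dist x y) → HasBAP lam X →
      ∀ (f : M → X) (g : X → M),
        (∀ x y, dist (f x) (f y) ≤ A * dist x y + B) →
        (∀ u v, dist (g u) (g v) ≤ A * dist u v + B) →
        (∀ x, dist (g (f x)) x ≤ B) →
        HasBAP (1 + 2 * lam * A ^ 2 + (2 * B + 2 * A + 2 * lam * A * B) / θ) (LipFree M o)) ∧
    (∀ (X : Type u) [NormedAddCommGroup X] [NormedSpace ℝ X] (lam : ℝ), HasBAP lam X →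
      ∀ (N : Set X) (a b : ℝ), 0 < a →
        (∀ x ∈ N, ∀ y ∈ N, x ≠ y → a ≤ dist x y) →
        (∀ u : X, ∃ x ∈ N, dist u x ≤ b) →
        ∀ o : N, HasBAP (1 + 2 * lam + (4 * b + 2 + 4 * lam * b) / a) (LipFree N o)) ∧
    (∀ (M : Type u) [MetricSpace M] (o : M),
      (∃ θ : ℝ, 0 < θ ∧ ∀ x y : M, x ≠ y → θ ≤ dist x y) →
      (∃ D : ℝ, ∀ R : ℝ, ∃ S : Finset M, ∀ x : M, dist x o ≤ R → ∃ s ∈ S, dist x s ≤ D) →
      ∃ lam : ℝ, HasBAP lam (LipFree M o)) ∧
    (∀ (X : Type u) [NormedAddCommGroup X] [NormedSpace ℝ X], (∃ lam : ℝ, HasBAP lam X) →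
      ∀ N : Set X, (∃ a : ℝ, 0 < a ∧ ∀ x ∈ N, ∀ y ∈ N, x ≠ y → a ≤ dist x y) →
        (∃ b : ℝ, ∀ u : X, ∃ x ∈ N, dist u x ≤ b) →
        ∀ o : N, ∃ mu : ℝ, HasBAP mu (LipFree N o)) :=
  ⟨fun M _ o θ D hθ hD hsep hcp lam hlam =>
      hasBAP_of_coarselyProper M o θ D hθ hD hsep hcp lam hlam,
    fun M _ M' _ o o' θ A B hθ hsep hsep' f g hf hg hgf hfg =>
      hasBAP_iff_of_quasiIsometry M M' o o' θ A B hθ hsep hsep' f g hf hg hgf hfg,
    fun M _ o X _ _ θ A B lam hθ hA hB hsep hX f g hf hg hgf =>
      hasBAP_of_coarse_retract M o X θ A B lam hθ hA hB hsep hX f g hf hg hgf,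
    fun X _ _ lam hX N a b ha hsep hdense o => nets X lam hX N a b ha hsep hdense o,
    fun M _ o hθ hD => by
      obtain ⟨θ, hθ, hsep⟩ := hθ
      obtain ⟨D, hcp⟩ := hD
      have hD0 : 0 ≤ D := by
        obtain ⟨S, hS⟩ := hcp 0
        obtain ⟨s, -, hs⟩ := hS o (by simp)
        exact dist_nonneg.trans hs
      exact ⟨1 + 2 * D / θ + 1,
        hasBAP_of_coarselyProper M o θ D hθ hD0 hsep hcp (1 + 2 * D / θ + 1) (by linarith)⟩,
    fun X _ _ hX N ha hb o => by
      obtain ⟨lam, hX⟩ := hX
      obtain ⟨a, ha, hsep⟩ := ha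
      obtain ⟨b, hdense⟩ := hb
      exact ⟨_, nets X lam hX N a b ha hsep hdense o⟩⟩

end Vale.Agent.Results.P090.A00_CombinedAndLiteral
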