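import Vale.Agent.H24.LipFree.CoarselyProper

/-!
# P090: bounded approximation property of Lipschitz-free spaces over coarsely proper
uniformly discrete metric spaces

`LipFree M o` is the Lipschitz-free space of the pointed metric space `(M, o)`: the closed linear
span of the evaluation functionals in the dual of `Lip0 M o` (Lipschitz functions vanishing at
`o`, normed by the Lipschitz constant). `HasBAP lam X` is the `lam`-bounded approximation
property. Both are defined in `Vale.Agent.H24.LipFree.Defs`.
-/

namespace Vale.Agent.Results.P090.A_CoarselyProperBAP

open Vale.Agent.H24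

universe u

/-- Let `M` be a metric space with base point `o` such that distinct points are at distance at
least `θ > 0` (uniformly discrete) and such that, for some `D ≥ 0`, every ball centred at `o` is
covered by finitely many closed balls of radius `D` (coarsely proper). Then the Lipschitz-free
space `F(M)` has the `lam`-bounded approximation property for every `lam > 1 + 2 * D / θ`. -/
theorem result :
    ∀ (M : Type u) [MetricSpace M] (o : M) (θ D : ℝ), 0 < θ → 0 ≤ D →
      (∀ x y : M, x ≠ y → θ ≤ dist x y) →
      (∀ R : ℝ, ∃ S : Finset M, ∀ x : M, dist x o ≤ R → ∃ s ∈ S, dist x s ≤ D) →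
      ∀ lam : ℝ, 1 + 2 * D / θ < lam → HasBAP lam (LipFree M o) :=
  fun M _ o θ D hθ hD hsep hcp lam hlam =>
    hasBAP_of_coarselyProper M o θ D hθ hD hsep hcp lam hlam

end Vale.Agent.Results.P090.A_CoarselyProperBAP
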