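import Vale.Agent.H24.LipFree.Transfer

/-!
# P090: the bounded approximation property of Lipschitz-free spaces over uniformly discrete
metric spaces is a quasi-isometry invariant

`LipFree M o` is the Lipschitz-free space of the pointed metric space `(M, o)` and
`HasBAP lam X` the `lam`-bounded approximation property; see `Vale.Agent.H24.LipFree.Defs`.
-/

namespace Vale.Agent.Results.P090.B_QuasiIsometryInvariance

open Vale.Agent.H24

universe u v

/-- Let `M` and `M'` be uniformly discrete metric spaces (distinct points at distance at least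
`θ > 0`) which are quasi-isometric: there are maps `f : M → M'` and `g : M' → M` with
`dist (f x) (f y) ≤ A * dist x y + B`, `dist (g x) (g y) ≤ A * dist x y + B`,
`dist (g (f x)) x ≤ B` and `dist (f (g y)) y ≤ B`. Then `F(M)` has the bounded approximation
property if and only if `F(M')` has it (for arbitrary base points). -/
theorem result :
    ∀ (M : Type u) [MetricSpace M] (M' : Type v) [MetricSpace M'] (o : M) (o' : M')
      (θ A B : ℝ), 0 < θ →
      (∀ x y : M, x ≠ y → θ ≤ dist x y) → (∀ x y : M', x ≠ y → θ ≤ dist x y) →
      ∀ (f : M → M') (g : M' → M),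
        (∀ x y, dist (f x) (f y) ≤ A * dist x y + B) →
        (∀ x y, dist (g x) (g y) ≤ A * dist x y + B) →
        (∀ x, dist (g (f x)) x ≤ B) → (∀ y, dist (f (g y)) y ≤ B) →
        ((∃ lam : ℝ, HasBAP lam (LipFree M o)) ↔ (∃ lam : ℝ, HasBAP lam (LipFree M' o'))) :=
  fun M _ M' _ o o' θ A B hθ hsep hsep' f g hf hg hgf hfg =>
    hasBAP_iff_of_quasiIsometry M M' o o' θ A B hθ hsep hsep' f g hf hg hgf hfg

end Vale.Agent.Results.P090.B_QuasiIsometryInvariance
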