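import Vale.Agent.H24.LipFree.Retract

/-!
# P090: the bounded approximation property of Lipschitz-free spaces over uniformly discrete
metric spaces that are coarse Lipschitz retracts of a normed space with the BAP

`LipFree M o` is the Lipschitz-free space of the pointed metric space `(M, o)` and
`HasBAP lam X` the `lam`-bounded approximation property; see `Vale.Agent.H24.LipFree.Defs`.
-/

namespace Vale.Agent.Results.P090.C_CoarseRetractOfBAPSpace

open Vale.Agent.H24

universe u v

/-- Let `M` be a uniformly discrete metric space (distinct points at distance at least `θ > 0`)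
and `X` a real normed space with the `lam`-bounded approximation property. Suppose there are
maps `f : M → X` and `g : X → M` with `dist (f x) (f y) ≤ A * dist x y + B`,
`dist (g u) (g v) ≤ A * dist u v + B` and `dist (g (f x)) x ≤ B` (this holds when `M` is
quasi-isometric to `X`, in particular when `M` is a net in `X`). Then `F(M)` has the
bounded approximation property, with the constant
`1 + 2 * lam * A ^ 2 + (2 * B + 2 * A + 2 * lam * A * B) / θ`, for every base point. -/
theorem result :
    ∀ (M : Type u) [MetricSpace M] (o : M) (X : Type v) [NormedAddCommGroup X]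
      [NormedSpace ℝ X] (θ A B lam : ℝ), 0 < θ → 0 ≤ A → 0 ≤ B →
      (∀ x y : M, x ≠ y → θ ≤ dist x y) → HasBAP lam X →
      ∀ (f : M → X) (g : X → M),
        (∀ x y, dist (f x) (f y) ≤ A * dist x y + B) →
        (∀ u v, dist (g u) (g v) ≤ A * dist u v + B) →
        (∀ x, dist (g (f x)) x ≤ B) →
        HasBAP (1 + 2 * lam * A ^ 2 + (2 * B + 2 * A + 2 * lam * A * B) / θ) (LipFree M o) :=
  fun M _ o X _ _ θ A B lam hθ hA hB hsep hX f g hf hg hgf =>
    hasBAP_of_coarse_retract M o X θ A B lam hθ hA hB hsep hX f g hf hg hgf

end Vale.Agent.Results.P090.C_CoarseRetractOfBAPSpace
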