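import Vale.Agent.H24.LipFree.Retract

/-!
# P090: the bounded approximation property of Lipschitz-free spaces over nets in normed spaces
with the bounded approximation property

`LipFree M o` is the Lipschitz-free space of the pointed metric space `(M, o)` and
`HasBAP lam X` the `lam`-bounded approximation property; see `Vale.Agent.H24.LipFree.Defs`.
-/

namespace Vale.Agent.Results.P090.D_NetsInBAPSpaces

open Vale.Agent.H24

universe u

/-- Let `X` be a real normed space with the `lam`-bounded approximation property and let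
`N ⊆ X` be a net: distinct points of `N` are at distance at least `a > 0`, and every point of
`X` is within distance `b` of a point of `N`. Then the Lipschitz-free space `F(N)` of `N` (with
the metric of `X` and any base point `o`) has the bounded approximation property, with the
constant `1 + 2 * lam + (4 * b + 2 + 4 * lam * b) / a`. -/
theorem result :
    ∀ (X : Type u) [NormedAddCommGroup X] [NormedSpace ℝ X] (lam : ℝ), HasBAP lam X →
      ∀ (N : Set X) (a b : ℝ), 0 < a →
        (∀ x ∈ N, ∀ y ∈ N, x ≠ y → a ≤ dist x y) →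
        (∀ u : X, ∃ x ∈ N, dist u x ≤ b) →
        ∀ o : N, HasBAP (1 + 2 * lam + (4 * b + 2 + 4 * lam * b) / a) (LipFree N o) := by
  intro X _ _ lam hX N a b ha hsep hdense o
  have hb : 0 ≤ b := by
    obtain ⟨x, -, hx⟩ := hdense 0
    exact dist_nonneg.trans hx
  choose p hpN hp using hdense
  have hsep' : ∀ x y : N, x ≠ y → a ≤ dist x y := fun x y hxy =>
    hsep x.1 x.2 y.1 y.2 (fun h => hxy (Subtype.ext h))
  have hf : ∀ x y : N, dist (x : X) (y : X) ≤ 1 * dist x y + 2 * b := by
    intro x y
    rw [one_mul, Subtype.dist_eq]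
    linarith
  have hg : ∀ u v : X, dist (⟨p u, hpN u⟩ : N) ⟨p v, hpN v⟩ ≤ 1 * dist u v + 2 * b := by
    intro u v
    rw [one_mul, Subtype.dist_eq]
    have h1 : dist (p u) (p v) ≤ dist (p u) u + dist u v + dist v (p v) := dist_triangle4 _ _ _ _
    have h2 : dist (p u) u ≤ b := by
      rw [dist_comm]
      exact hp u
    linarith [hp v]
  have hgf : ∀ x : N, dist (⟨p (x : X), hpN (x : X)⟩ : N) x ≤ 2 * b := by
    intro x
    rw [Subtype.dist_eq]
    have h2 : dist (p (x : X)) (x : X) ≤ b := by
      rw [dist_comm]
      exact hp (x : X)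
    linarith
  have key := hasBAP_of_coarse_retract N o X a 1 (2 * b) lam ha zero_le_one (by linarith) hsep'
    hX (fun x => (x : X)) (fun u => ⟨p u, hpN u⟩) hf hg hgf
  have e : 1 + 2 * lam * (1 : ℝ) ^ 2 + (2 * (2 * b) + 2 * 1 + 2 * lam * 1 * (2 * b)) / a
      = 1 + 2 * lam + (4 * b + 2 + 4 * lam * b) / a := by ring
  rw [e] at key
  exact key

end Vale.Agent.Results.P090.D_NetsInBAPSpaces
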